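import Vale.Agent.P097.H500.Collar

/-! # P097 / MEM : the five infinitesimal ellipses solve the linearised conditions -/

set_option linter.all false

namespace Vale.Agent.P097.H209

open Real
open Vale.Agent.P097 Vale.Agent.P097.H500.Ell

section leaf

variable {a b c J : ℝ} (H : Ok a b c) (hJ : Sm a b c J)

/-- derivative of the leaf -/
noncomputable def fd (a b c J x : ℝ) : ℝ := J * (qd b c x / sf a b c x) / cos (lf a b c J x)

include H hJ

theorem cos_f (x : ℝ) : 0 < cos (lf a b c J x) :=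
  cos_pos_of_mem_Ioo ⟨by have := H.lf_pos hJ x; have := pi_pos; linarith, H.lf_lt hJ x⟩

theorem hasDerivAt_f (x : ℝ) : HasDerivAt (lf a b c J) (fd a b c J x) x := by
  obtain ⟨h1, h2⟩ := H.s1 hJ x
  have h3 := (hasDerivAt_arcsin (x := J * sf a b c x) (by linarith) h2.ne).comp x
    ((H.hasDerivAt_sf x).const_mul J)
  have e : √(1 - (J * sf a b c x) ^ 2) = cos (lf a b c J x) := by
    rw [← H.sin_lf hJ x]
    have := sin_sq_add_cos_sq (lf a b c J x)
    rw [show 1 - sin (lf a b c J x) ^ 2 = cos (lf a b c J x) ^ 2 by linarith]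
    exact sqrt_sq (cos_f H hJ x).le
  refine (HasDerivAt.congr_deriv h3 ?_)
  rw [e]
  unfold fd
  ring

/-- distance of the outgoing line to the centre -/
theorem A1_pos (x : ℝ) : 0 < sf a b c x * cos (lf a b c J x) + qd b c x / sf a b c x * sin (lf a b c J x) := by
  have hs := H.spos x
  have h1 := H.wpos hJ (x := x) (y := x + lf a b c J x) (by
    rw [show x + lf a b c J x - x = lf a b c J x by ring, H.sin_lf hJ, abs_of_pos (H.s1 hJ x).1]) (by
    rw [show x + lf a b c J x - x = lf a b c J x by ring]; exact cos_f H hJ x)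
  rw [bq_form, show x + lf a b c J x - x = lf a b c J x by ring, ← H.ssq x] at h1
  have e : sf a b c x * cos (lf a b c J x) + qd b c x / sf a b c x * sin (lf a b c J x) =
      (sf a b c x ^ 2 * cos (lf a b c J x) + qd b c x * sin (lf a b c J x)) / sf a b c x := by field_simp
  rw [e]
  exact div_pos h1 hs

theorem A2_pos (x : ℝ) : 0 < sf a b c x * cos (lf a b c J x) - qd b c x / sf a b c x * sin (lf a b c J x) := by
  have hs := H.spos x
  have h1 := H.wpos hJ (x := x) (y := x - lf a b c J x) (by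
    rw [show x - lf a b c J x - x = -lf a b c J x by ring, sin_neg, abs_neg, H.sin_lf hJ,
      abs_of_pos (H.s1 hJ x).1]) (by
    rw [show x - lf a b c J x - x = -lf a b c J x by ring, cos_neg]; exact cos_f H hJ x)
  rw [bq_form, show x - lf a b c J x - x = -lf a b c J x by ring, ← H.ssq x, cos_neg, sin_neg] at h1
  have e : sf a b c x * cos (lf a b c J x) - qd b c x / sf a b c x * sin (lf a b c J x) =
      (sf a b c x ^ 2 * cos (lf a b c J x) + qd b c x * -sin (lf a b c J x)) / sf a b c x := by field_simp; ring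
  rw [e]
  exact div_pos h1 hs

/-- the two computations of the distance agree -/
theorem A_eq {x y : ℝ} (hy : y = x + lf a b c J x + lf a b c J y) :
    sf a b c x * cos (lf a b c J x) + qd b c x / sf a b c x * sin (lf a b c J x) = sf a b c y * cos (lf a b c J y) - qd b c y / sf a b c y * sin (lf a b c J y) := by
  have hsx := H.spos x
  have hsy := H.spos y
  obtain ⟨θ, hθ⟩ : ∃ θ, θ = x + lf a b c J x := ⟨_, rfl⟩
  have ex : θ - x = lf a b c J x := by linarith
  have ey : θ - y = -lf a b c J y := by linarith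
  have p1 := A1_pos H hJ x
  have p2 := A2_pos H hJ y
  have b1 : bq a b c x θ = sf a b c x * (sf a b c x * cos (lf a b c J x) + qd b c x / sf a b c x * sin (lf a b c J x)) := by
    rw [bq_form, ex, ← H.ssq x]; field_simp
  have b2 : bq a b c y θ = sf a b c y * (sf a b c y * cos (lf a b c J y) - qd b c y / sf a b c y * sin (lf a b c J y)) := by
    rw [bq_form, ey, ← H.ssq y, cos_neg, sin_neg]; field_simp; ring
  have c1 := bq_sq (a := a) (b := b) (c := c) x θ
  have c2 := bq_sq (a := a) (b := b) (c := c) y θ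
  have d1 : sin (x - θ) ^ 2 = (J * sf a b c x) ^ 2 := by
    rw [← H.sin_lf hJ x, ← ex, ← neg_sub θ x, sin_neg, neg_sq]
  have d2 : sin (y - θ) ^ 2 = (J * sf a b c y) ^ 2 := by
    rw [← neg_sub θ y, ey, neg_neg, H.sin_lf hJ]
  rw [b1, d1, ← H.ssq x, ← H.ssq θ] at c1
  rw [b2, d2, ← H.ssq y, ← H.ssq θ] at c2
  have e1 : (sf a b c x * cos (lf a b c J x) + qd b c x / sf a b c x * sin (lf a b c J x)) ^ 2 =
      sf a b c θ ^ 2 - (a ^ 2 - b ^ 2 - c ^ 2) * J ^ 2 := by
    have : sf a b c x ^ 2 * (sf a b c x * cos (lf a b c J x) + qd b c x / sf a b c x * sin (lf a b c J x)) ^ 2 =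
        sf a b c x ^ 2 * (sf a b c θ ^ 2 - (a ^ 2 - b ^ 2 - c ^ 2) * J ^ 2) := by linear_combination c1
    exact mul_left_cancel₀ (pow_ne_zero 2 hsx.ne') this
  have e2 : (sf a b c y * cos (lf a b c J y) - qd b c y / sf a b c y * sin (lf a b c J y)) ^ 2 =
      sf a b c θ ^ 2 - (a ^ 2 - b ^ 2 - c ^ 2) * J ^ 2 := by
    have : sf a b c y ^ 2 * (sf a b c y * cos (lf a b c J y) - qd b c y / sf a b c y * sin (lf a b c J y)) ^ 2 =
        sf a b c y ^ 2 * (sf a b c θ ^ 2 - (a ^ 2 - b ^ 2 - c ^ 2) * J ^ 2) := by linear_combination c2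
    exact mul_left_cancel₀ (pow_ne_zero 2 hsy.ne') this
  exact (sq_eq_sq₀ p1.le p2.le).1 (e1.trans e2.symm)

theorem one_sub_fd (x : ℝ) : 0 < 1 - fd a b c J x := by
  have h1 := A2_pos H hJ x
  have h2 := cos_f H hJ x
  have hs := H.spos x
  rw [H.sin_lf hJ] at h1
  have e : 1 - fd a b c J x = (sf a b c x * cos (lf a b c J x) - qd b c x / sf a b c x * (J * sf a b c x)) /
      (sf a b c x * cos (lf a b c J x)) := by
    unfold fd; field_simp
  rw [e]
  exact div_pos h1 (mul_pos hs h2)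

theorem one_add_fd (x : ℝ) : 0 < 1 + fd a b c J x := by
  have h1 := A1_pos H hJ x
  have h2 := cos_f H hJ x
  have hs := H.spos x
  rw [H.sin_lf hJ] at h1
  have e : 1 + fd a b c J x = (sf a b c x * cos (lf a b c J x) + qd b c x / sf a b c x * (J * sf a b c x)) /
      (sf a b c x * cos (lf a b c J x)) := by
    unfold fd; field_simp
  rw [e]
  exact div_pos h1 (mul_pos hs h2)

theorem hasDerivAt_sub (x : ℝ) : HasDerivAt (fun y => y - lf a b c J y) (1 - fd a b c J x) x :=
  (hasDerivAt_id x).sub (hasDerivAt_f H hJ x)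

theorem strictMono_sub : StrictMono fun y => y - lf a b c J y :=
  strictMono_of_deriv_pos fun x => by
    rw [(hasDerivAt_sub H hJ x).deriv]; exact one_sub_fd H hJ x

theorem uniq {θ y y' : ℝ} (h1 : y = θ + lf a b c J y) (h2 : y' = θ + lf a b c J y') : y = y' :=
  (strictMono_sub H hJ).injective (show y - lf a b c J y = y' - lf a b c J y' by linarith)

/-- the next bounce is a differentiable function -/
theorem exists_N : ∃ N : ℝ → ℝ, (∀ x, N x = x + lf a b c J x + lf a b c J (N x)) ∧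
    ∀ x, HasDerivAt N ((1 + fd a b c J x) / (1 - fd a b c J (N x))) x := by
  have hsurj : Function.Surjective fun y => y - lf a b c J y := by
    intro θ
    obtain ⟨y, hy⟩ := H.exists_next hJ θ
    exact ⟨y, by simp only; linarith⟩
  obtain ⟨e, he⟩ : ∃ e : ℝ ≃o ℝ, ∀ y, e y = y - lf a b c J y :=
    ⟨StrictMono.orderIsoOfSurjective _ (strictMono_sub H hJ) hsurj, fun y => rfl⟩
  refine ⟨fun x => e.symm (x + lf a b c J x), fun x => ?_, fun x => ?_⟩
  · have h1 := he (e.symm (x + lf a b c J x))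
    rw [e.apply_symm_apply] at h1
    linarith
  · have h1 : HasDerivAt (fun y => y - lf a b c J y) (1 - fd a b c J (e.symm (x + lf a b c J x)))
        (e.symm (x + lf a b c J x)) := hasDerivAt_sub H hJ _
    have h2 : HasDerivAt e.symm (1 - fd a b c J (e.symm (x + lf a b c J x)))⁻¹ (x + lf a b c J x) := by
      refine HasDerivAt.of_local_left_inverse ?_ h1
        (one_sub_fd H hJ _).ne' ?_
      · exact e.symm.continuous.continuousAt
      · refine Filter.Eventually.of_forall fun θ => ?_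
        have := he (e.symm θ)
        rw [e.apply_symm_apply] at this
        exact this.symm
    have h3 : HasDerivAt (fun x => x + lf a b c J x) (1 + fd a b c J x) x :=
      (hasDerivAt_id x).add (hasDerivAt_f H hJ x)
    have h4 := HasDerivAt.comp x h2 h3
    refine (HasDerivAt.congr_deriv h4 ?_)
    rw [div_eq_inv_mul]

end leaf

section per

variable {a b c J : ℝ} (H : Ok a b c) (hJ : Sm a b c J)

theorem qd_per (x : ℝ) : qd b c (x + 2 * π) = qd b c x := by
  unfold qd
  have e : 2 * (x + 2 * π) = 2 * x + 2 * π + 2 * π := by ring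
  rw [e, cos_add_two_pi, cos_add_two_pi, sin_add_two_pi, sin_add_two_pi]

theorem hasDerivAt_qd (x : ℝ) : HasDerivAt (qd b c) (2 * (a - qf a b c x)) x := by
  have h2 : HasDerivAt (fun x : ℝ => 2 * x) 2 x := by
    simpa using (hasDerivAt_id x).const_mul (2 : ℝ)
  have h1 := (h2.cos.const_mul c).sub (h2.sin.const_mul b)
  refine HasDerivAt.congr_deriv (h1.congr_of_eventuallyEq
    (Filter.Eventually.of_forall fun y => ?_)) ?_
  · simp [qd]
  · unfold qf; ring

/-- second derivative of the support function -/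
noncomputable def s2 (a b c x : ℝ) : ℝ :=
  (2 * (a - qf a b c x) * sf a b c x - qd b c x * (qd b c x / sf a b c x)) / sf a b c x ^ 2

/-- weight: radius of curvature times cosine of the angle -/
noncomputable def RR (a b c J x : ℝ) : ℝ := (sf a b c x + s2 a b c x) * cos (lf a b c J x)

theorem RR_per : Function.Periodic (RR a b c J) (2 * π) := by
  intro x
  unfold RR s2
  rw [qd_per, qf_per, sf_per, Ok.lf_per]

/-- endpoint terms -/
noncomputable def B1 (a b c J x : ℝ) : ℝ :=
  sf a b c x * sin (lf a b c J x) + qd b c x / sf a b c x * cos (lf a b c J x)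

noncomputable def B0 (a b c J x : ℝ) : ℝ :=
  -(sf a b c x * sin (lf a b c J x)) + qd b c x / sf a b c x * cos (lf a b c J x)

theorem B1_per : Function.Periodic (B1 a b c J) (2 * π) := by
  intro x
  unfold B1
  rw [qd_per, sf_per, Ok.lf_per]

include H in
theorem hasDerivAt_s1 (x : ℝ) : HasDerivAt (fun x => qd b c x / sf a b c x) (s2 a b c x) x :=
  (hasDerivAt_qd x).div (H.hasDerivAt_sf x) (H.spos x).ne'

include H hJ

theorem B1_deriv (x : ℝ) : HasDerivAt (B1 a b c J) (RR a b c J x - (1 - fd a b c J x) *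
    (sf a b c x * cos (lf a b c J x) - qd b c x / sf a b c x * sin (lf a b c J x))) x := by
  have hf := hasDerivAt_f H hJ x
  have h1 := ((H.hasDerivAt_sf x).mul hf.sin).add ((hasDerivAt_s1 H x).mul hf.cos)
  refine HasDerivAt.congr_deriv h1 ?_
  unfold RR
  ring

theorem B0_deriv (x : ℝ) : HasDerivAt (B0 a b c J) (RR a b c J x - (1 + fd a b c J x) *
    (sf a b c x * cos (lf a b c J x) + qd b c x / sf a b c x * sin (lf a b c J x))) x := by
  have hf := hasDerivAt_f H hJ x
  have h1 := ((H.hasDerivAt_sf x).mul hf.sin).neg.add ((hasDerivAt_s1 H x).mul hf.cos)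
  refine HasDerivAt.congr_deriv h1 ?_
  unfold RR
  ring

theorem B_diff (x : ℝ) : B1 a b c J x - B0 a b c J x = 2 * J * qf a b c x := by
  unfold B1 B0
  rw [H.sin_lf hJ, ← H.ssq x]
  ring

/-- the sum of the squares of the support function over a closed orbit does not depend on the
orbit -/
theorem const_q {N : ℝ → ℝ} (hN1 : ∀ x, N x = x + lf a b c J x + lf a b c J (N x))
    (hN2 : ∀ x, HasDerivAt N ((1 + fd a b c J x) / (1 - fd a b c J (N x))) x) {n p : ℕ}
    (hcl : ∀ x, N^[n] x = x + 2 * π * p) (x y : ℝ) :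
    ∑ j ∈ Finset.range n, qf a b c (N^[j] x) = ∑ j ∈ Finset.range n, qf a b c (N^[j] y) := by
  obtain ⟨D, hD0, hD1⟩ : ∃ D : ℕ → ℝ → ℝ, (∀ x, D 0 x = 1) ∧ ∀ j x,
      D (j + 1) x = (1 + fd a b c J (N^[j] x)) / (1 - fd a b c J (N (N^[j] x))) * D j x :=
    ⟨fun j => Nat.rec (fun _ => 1) (fun j d x =>
      (1 + fd a b c J (N^[j] x)) / (1 - fd a b c J (N (N^[j] x))) * d x) j, fun _ => rfl,
      fun _ _ => rfl⟩
  have hD : ∀ j x, HasDerivAt (N^[j]) (D j x) x := by
    intro j
    induction j with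
    | zero =>
      intro x
      rw [hD0]
      simpa using hasDerivAt_id x
    | succ j ih =>
      intro x
      rw [hD1]
      have := (hN2 (N^[j] x)).comp x (ih x)
      rw [Function.iterate_succ']
      exact this
  have hDn : ∀ x, D n x = 1 := by
    intro x
    have h1 : N^[n] = fun x => x + 2 * π * p := funext hcl
    have h2 := hD n x
    rw [h1] at h2
    have h3 : HasDerivAt (fun x : ℝ => x + 2 * π * p) 1 x := (hasDerivAt_id x).add_const _
    exact h2.unique h3
  -- one term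
  have hterm : ∀ j x, HasDerivAt (fun x => B1 a b c J (N^[j + 1] x) - B0 a b c J (N^[j] x))
      (RR a b c J (N^[j + 1] x) * D (j + 1) x - RR a b c J (N^[j] x) * D j x) x := by
    intro j x
    have h1 := (B1_deriv H hJ (N^[j + 1] x)).comp x (hD (j + 1) x)
    have h2 := (B0_deriv H hJ (N^[j] x)).comp x (hD j x)
    refine HasDerivAt.congr_deriv (h1.sub h2) ?_
    have e : N^[j + 1] x = N (N^[j] x) := by rw [Function.iterate_succ']; rfl
    have hA := A_eq H hJ (hN1 (N^[j] x))
    have hne := (one_sub_fd H hJ (N (N^[j] x))).ne'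
    rw [e, ← hA, hD1]
    field_simp
    ring
  have hsum : ∀ x, HasDerivAt (fun x => ∑ j ∈ Finset.range n,
      (B1 a b c J (N^[j + 1] x) - B0 a b c J (N^[j] x))) 0 x := by
    intro x
    have h1 : HasDerivAt (fun x => ∑ j ∈ Finset.range n,
        (B1 a b c J (N^[j + 1] x) - B0 a b c J (N^[j] x))) (∑ j ∈ Finset.range n,
        (RR a b c J (N^[j + 1] x) * D (j + 1) x - RR a b c J (N^[j] x) * D j x)) x :=
      HasDerivAt.fun_sum fun j _ => hterm j x
    refine HasDerivAt.congr_deriv h1 ?_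
    rw [Finset.sum_range_sub (fun j => RR a b c J (N^[j] x) * D j x)]
    rw [hDn, hD0, hcl]
    have h2 := (RR_per (a := a) (b := b) (c := c) (J := J)).nat_mul p x
    have h3 : x + 2 * π * p = x + (p : ℝ) * (2 * π) := by ring
    simp only [Function.iterate_zero, id]
    rw [h3, h2]
    ring
  have hconst := is_const_of_deriv_eq_zero (fun x => (hsum x).differentiableAt)
    (fun x => (hsum x).deriv) x y
  have hJ0 := hJ.1
  have hval : ∀ x, ∑ j ∈ Finset.range n, (B1 a b c J (N^[j + 1] x) - B0 a b c J (N^[j] x)) =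
      2 * J * ∑ j ∈ Finset.range n, qf a b c (N^[j] x) := by
    intro x
    have h1 : ∀ j ∈ Finset.range n, B1 a b c J (N^[j + 1] x) - B0 a b c J (N^[j] x) =
        (B1 a b c J (N^[j + 1] x) - B1 a b c J (N^[j] x)) + 2 * J * qf a b c (N^[j] x) := by
      intro j _
      rw [← B_diff H hJ (N^[j] x)]
      ring
    rw [Finset.sum_congr rfl h1, Finset.sum_add_distrib,
      Finset.sum_range_sub (fun j => B1 a b c J (N^[j] x)), hcl, Finset.mul_sum]
    have h2 := (B1_per (a := a) (b := b) (c := c) (J := J)).nat_mul p x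
    have h3 : x + 2 * π * p = x + (p : ℝ) * (2 * π) := by ring
    simp only [Function.iterate_zero, id]
    rw [h3, h2]
    ring
  simp only [hval] at hconst
  exact mul_left_cancel₀ (by positivity : (2 * J) ≠ 0) hconst

end per

section orbits

variable {a b c J : ℝ} (H : Ok a b c) (hJ : Sm a b c J)

theorem orb_next {x : ℕ → ℝ} (hx : LR.Orb (sf a b c) (lf a b c J) x) (j : ℕ) :
    x (j + 1) = x j + lf a b c J (x j) + lf a b c J (x (j + 1)) := (hx j).2.2.2.2.1

include H hJ

theorem orb_iter {N : ℝ → ℝ} (hN1 : ∀ x, N x = x + lf a b c J x + lf a b c J (N x)) {x : ℕ → ℝ}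
    (hx : LR.Orb (sf a b c) (lf a b c J) x) (j : ℕ) : x j = N^[j] (x 0) := by
  induction j with
  | zero => rfl
  | succ j ih =>
    rw [Function.iterate_succ', Function.comp, ← ih]
    exact uniq H hJ (orb_next hx j) (hN1 (x j))

theorem orb_of_N {N : ℝ → ℝ} (hN1 : ∀ x, N x = x + lf a b c J x + lf a b c J (N x)) (x : ℝ) :
    LR.Orb (sf a b c) (lf a b c J) fun j => N^[j] x := by
  intro j
  have e : N^[j + 1] x = N (N^[j] x) := by rw [Function.iterate_succ']; rfl
  simp only [e]
  exact H.step hJ (hN1 _)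

/-- constancy of the sum of `q` -/
theorem orb_q {n p : ℕ} (hcl : LR.Clo (sf a b c) (lf a b c J) n p) {x y : ℕ → ℝ}
    (hx : LR.Orb (sf a b c) (lf a b c J) x) (hy : LR.Orb (sf a b c) (lf a b c J) y) :
    ∑ j ∈ Finset.range n, qf a b c (x j) = ∑ j ∈ Finset.range n, qf a b c (y j) := by
  obtain ⟨N, hN1, hN2⟩ := exists_N H hJ
  have h1 : ∀ x, N^[n] x = x + 2 * π * p := fun x => hcl _ (orb_of_N H hJ hN1 x)
  have h2 := const_q H hJ hN1 hN2 h1 (x 0) (y 0)
  have e1 : ∀ j ∈ Finset.range n, qf a b c (x j) = qf a b c (N^[j] (x 0)) := fun j _ => by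
    rw [orb_iter H hJ hN1 hx j]
  have e2 : ∀ j ∈ Finset.range n, qf a b c (y j) = qf a b c (N^[j] (y 0)) := fun j _ => by
    rw [orb_iter H hJ hN1 hy j]
  rw [Finset.sum_congr rfl e1, Finset.sum_congr rfl e2]
  exact h2

/-- telescoping of a periodic quantity over a closed orbit -/
theorem orb_tel {g : ℝ → ℝ} (hg : Function.Periodic g (2 * π)) {n p : ℕ}
    (hcl : LR.Clo (sf a b c) (lf a b c J) n p) {x : ℕ → ℝ}
    (hx : LR.Orb (sf a b c) (lf a b c J) x) :
    ∑ j ∈ Finset.range n, (g (x (j + 1)) - g (x j)) = 0 := by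
  rw [Finset.sum_range_sub (fun j => g (x j)), hcl x hx]
  have h3 : x 0 + 2 * π * p = x 0 + (p : ℝ) * (2 * π) := by ring
  rw [h3, hg.nat_mul p, sub_self]

theorem orb_cos {n p : ℕ} (hcl : LR.Clo (sf a b c) (lf a b c J) n p) {x : ℕ → ℝ}
    (hx : LR.Orb (sf a b c) (lf a b c J) x) :
    ∑ j ∈ Finset.range n, cos (x j) * sin (lf a b c J (x j)) = 0 := by
  have h1 := orb_tel H hJ (g := fun y => sin (y - lf a b c J y)) (fun y => by
    simp only
    rw [Ok.lf_per, show y + 2 * π - lf a b c J y = y - lf a b c J y + 2 * π by ring,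
      sin_add_two_pi]) hcl hx
  have h2 : ∀ j ∈ Finset.range n, sin (x (j + 1) - lf a b c J (x (j + 1))) -
      sin (x j - lf a b c J (x j)) = 2 * (cos (x j) * sin (lf a b c J (x j))) := by
    intro j _
    have e : x (j + 1) - lf a b c J (x (j + 1)) = x j + lf a b c J (x j) := by
      have := orb_next hx j; linarith
    rw [e, sin_add, sin_sub]
    ring
  rw [Finset.sum_congr rfl h2, ← Finset.mul_sum] at h1
  linarith

theorem orb_sin {n p : ℕ} (hcl : LR.Clo (sf a b c) (lf a b c J) n p) {x : ℕ → ℝ}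
    (hx : LR.Orb (sf a b c) (lf a b c J) x) :
    ∑ j ∈ Finset.range n, sin (x j) * sin (lf a b c J (x j)) = 0 := by
  have h1 := orb_tel H hJ (g := fun y => cos (y - lf a b c J y)) (fun y => by
    simp only
    rw [Ok.lf_per, show y + 2 * π - lf a b c J y = y - lf a b c J y + 2 * π by ring,
      cos_add_two_pi]) hcl hx
  have h2 : ∀ j ∈ Finset.range n, cos (x (j + 1) - lf a b c J (x (j + 1))) -
      cos (x j - lf a b c J (x j)) = -2 * (sin (x j) * sin (lf a b c J (x j))) := by
    intro j _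
    have e : x (j + 1) - lf a b c J (x (j + 1)) = x j + lf a b c J (x j) := by
      have := orb_next hx j; linarith
    rw [e, cos_add, cos_sub]
    ring
  rw [Finset.sum_congr rfl h2, ← Finset.mul_sum] at h1
  linarith

/-- rotation -/
theorem orb_rot {n p : ℕ} (hcl : LR.Clo (sf a b c) (lf a b c J) n p) {x : ℕ → ℝ}
    (hx : LR.Orb (sf a b c) (lf a b c J) x) :
    ∑ j ∈ Finset.range n, qd b c (x j) / sf a b c (x j) * sin (lf a b c J (x j)) = 0 := by
  have h1 := orb_tel H hJ (g := fun y => sf a b c y * cos (lf a b c J y) -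
      qd b c y / sf a b c y * sin (lf a b c J y)) (fun y => by
    simp only
    rw [Ok.lf_per, sf_per, qd_per]) hcl hx
  have h2 : ∀ j ∈ Finset.range n, (sf a b c (x (j + 1)) * cos (lf a b c J (x (j + 1))) -
      qd b c (x (j + 1)) / sf a b c (x (j + 1)) * sin (lf a b c J (x (j + 1)))) -
      (sf a b c (x j) * cos (lf a b c J (x j)) -
      qd b c (x j) / sf a b c (x j) * sin (lf a b c J (x j))) =
      2 * (qd b c (x j) / sf a b c (x j) * sin (lf a b c J (x j))) := by
    intro j _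
    rw [← A_eq H hJ (orb_next hx j)]
    ring
  rw [Finset.sum_congr rfl h2, ← Finset.mul_sum] at h1
  linarith

end orbits

/-! ### normal position -/

theorem an_hE {a c : ℝ} (h0 : 0 < c) (h1 : c < a) (x : ℝ) : AnalyticAt ℝ (LR.hE a c) x ∧
    LR.hE a c x ≠ 0 := by
  have H := ok_hE h0 h1.le
  have hpos : ∀ x, 0 < a ^ 2 * cos x ^ 2 + c ^ 2 * sin x ^ 2 := by
    intro x
    have := H.qpos x
    rw [qf_eq] at this
    nlinarith
  have hq : AnalyticAt ℝ (fun x => a ^ 2 * cos x ^ 2 + c ^ 2 * sin x ^ 2) x := by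
    have e1 : AnalyticAt ℝ cos x := Real.analyticAt_cos
    have e2 : AnalyticAt ℝ sin x := Real.analyticAt_sin
    exact (analyticAt_const.mul (e1.pow 2)).add (analyticAt_const.mul (e2.pow 2))
  have e : LR.hE a c = fun x => exp (log (a ^ 2 * cos x ^ 2 + c ^ 2 * sin x ^ 2) / 2) := by
    funext x
    unfold LR.hE
    have h3 := hpos x
    rw [Real.sqrt_eq_iff_mul_self_eq h3.le (exp_pos _).le, ← exp_add, add_halves, exp_log h3]
  refine ⟨?_, ?_⟩
  · rw [e]
    exact ((hq.log (hpos x)).div analyticAt_const two_ne_zero).rexp'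
  · rw [e]; exact (exp_pos _).ne'

theorem mem : LR.MEM := by
  intro a c h0 h1 ε hε i
  have H := ok_hE h0 h1.le
  have hB : (a ^ 2 - c ^ 2) ≠ 0 := by
    have : 0 < (a ^ 2 - c ^ 2) := by nlinarith
    exact this.ne'
  have hper : ∀ x, LR.hE a c (x + 2 * π) = LR.hE a c x := by
    intro x; rw [hE_eq, sf_per]
  have e2 : ∀ x : ℝ, 2 * (x + 2 * π) = 2 * x + 2 * π + 2 * π := fun x => by ring
  have an1 : ∀ x, AnalyticAt ℝ (LR.hE a c) x := fun x => (an_hE h0 h1 x).1
  have ne1 : ∀ x, LR.hE a c x ≠ 0 := fun x => (an_hE h0 h1 x).2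
  have hs : ∀ x : ℝ, AnalyticAt ℝ (fun x => sin (2 * x)) x := fun x =>
    (Real.analyticAt_sin).comp (analyticAt_const.mul analyticAt_id)
  have hc : ∀ x : ℝ, AnalyticAt ℝ (fun x => cos (2 * x)) x := fun x =>
    (Real.analyticAt_cos).comp (analyticAt_const.mul analyticAt_id)
  fin_cases i
  · refine ⟨fun x => Real.analyticAt_cos, fun x => cos_add_two_pi x, ?_⟩
    intro n p hn hp hnp J hJ hJ1 hcl x y hx hy
    have hS := sm_hE h0 h1.le hJ hJ1
    rw [hE_eq, fE_eq] at hcl hx hy
    rw [fE_eq]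
    exact (orb_cos H hS hcl hx).trans (orb_cos H hS hcl hy).symm
  · refine ⟨fun x => Real.analyticAt_sin, fun x => sin_add_two_pi x, ?_⟩
    intro n p hn hp hnp J hJ hJ1 hcl x y hx hy
    have hS := sm_hE h0 h1.le hJ hJ1
    rw [hE_eq, fE_eq] at hcl hx hy
    rw [fE_eq]
    exact (orb_sin H hS hcl hx).trans (orb_sin H hS hcl hy).symm
  · refine ⟨fun x => analyticAt_const.div (an1 x) (ne1 x), fun x => ?_, ?_⟩
    · show 1 / LR.hE a c (x + 2 * π) = 1 / LR.hE a c x
      rw [hper]
    intro n p hn hp hnp J hJ hJ1 hcl x y hx hy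
    have hS := sm_hE h0 h1.le hJ hJ1
    have e : ∀ z : ℝ, LR.tg a c 2 z * sin (LR.fE a c J z) = J := by
      intro z
      show 1 / LR.hE a c z * sin (LR.fE a c J z) = J
      have := ne1 z
      rw [fE_eq, H.sin_lf hS, ← hE_eq]
      field_simp
    show ∑ j ∈ Finset.range n, LR.tg a c 2 (x j) * sin (LR.fE a c J (x j)) =
      ∑ j ∈ Finset.range n, LR.tg a c 2 (y j) * sin (LR.fE a c J (y j))
    simp only [e]
  · refine ⟨fun x => (hc x).div (an1 x) (ne1 x), fun x => ?_, ?_⟩
    · show cos (2 * (x + 2 * π)) / LR.hE a c (x + 2 * π) = cos (2 * x) / LR.hE a c x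
      rw [hper, e2, cos_add_two_pi, cos_add_two_pi]
    intro n p hn hp hnp J hJ hJ1 hcl x y hx hy
    have hS := sm_hE h0 h1.le hJ hJ1
    have e : ∀ z : ℝ, LR.tg a c 3 z * sin (LR.fE a c J z) =
        J / ((a ^ 2 - c ^ 2) / 2) * (qf ((a ^ 2 + c ^ 2) / 2) ((a ^ 2 - c ^ 2) / 2) 0 z -
          (a ^ 2 + c ^ 2) / 2) := by
      intro z
      show cos (2 * z) / LR.hE a c z * sin (LR.fE a c J z) = _
      have := ne1 z
      rw [fE_eq, H.sin_lf hS, ← hE_eq]
      unfold qf
      field_simp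
      ring
    show ∑ j ∈ Finset.range n, LR.tg a c 3 (x j) * sin (LR.fE a c J (x j)) =
      ∑ j ∈ Finset.range n, LR.tg a c 3 (y j) * sin (LR.fE a c J (y j))
    simp only [e]
    rw [hE_eq, fE_eq] at hcl hx hy
    rw [← Finset.mul_sum, ← Finset.mul_sum, Finset.sum_sub_distrib, Finset.sum_sub_distrib,
      orb_q H hS hcl hx hy]
  · refine ⟨fun x => (hs x).div (an1 x) (ne1 x), fun x => ?_, ?_⟩
    · show sin (2 * (x + 2 * π)) / LR.hE a c (x + 2 * π) = sin (2 * x) / LR.hE a c x
      rw [hper, e2, sin_add_two_pi, sin_add_two_pi]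
    intro n p hn hp hnp J hJ hJ1 hcl x y hx hy
    have hS := sm_hE h0 h1.le hJ hJ1
    have e : ∀ z : ℝ, LR.tg a c 4 z * sin (LR.fE a c J z) =
        -(1 / ((a ^ 2 - c ^ 2) / 2)) * (qd ((a ^ 2 - c ^ 2) / 2) 0 z /
          sf ((a ^ 2 + c ^ 2) / 2) ((a ^ 2 - c ^ 2) / 2) 0 z *
          sin (lf ((a ^ 2 + c ^ 2) / 2) ((a ^ 2 - c ^ 2) / 2) 0 J z)) := by
      intro z
      show sin (2 * z) / LR.hE a c z * sin (LR.fE a c J z) = _
      have := ne1 z
      rw [fE_eq, ← hE_eq]
      unfold qd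
      field_simp
      ring
    show ∑ j ∈ Finset.range n, LR.tg a c 4 (x j) * sin (LR.fE a c J (x j)) =
      ∑ j ∈ Finset.range n, LR.tg a c 4 (y j) * sin (LR.fE a c J (y j))
    simp only [e]
    rw [hE_eq, fE_eq] at hcl hx hy
    rw [← Finset.mul_sum, ← Finset.mul_sum, orb_rot H hS hcl hx, orb_rot H hS hcl hy]

end Vale.Agent.P097.H209
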